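import Vale.Agent.P148.R2.H771.JQuad

/-!
# P148: the counterclockwise order of the marked points
-/

namespace Vale.Agent.P148M96

/-- The parametrisation of the boundary, along which `a`, `b`, `c`, `d` come in this order, is
counterclockwise: its winding number about every point of `D` is `+1`. -/
def Ccw (Q : P148.JQuad) : Prop :=
  ∀ z ∈ Q.D, ∃ L : ℝ → ℂ, Continuous L ∧ (∀ t : ℝ, Complex.exp (L t) = Q.γ t - z) ∧
    L 4 - L 0 = 2 * Real.pi * Complex.I

end Vale.Agent.P148M96
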