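import Vale.Agent.P148M96.Mark

/-!
# Listing the points of a Poisson process, and existence of independent colourings
-/

open MeasureTheory Set Metric ProbabilityTheory Filter Topology
open scoped NNReal ENNReal

namespace Vale.Agent.P148M96

open P148

theorem ex_key : ∃ e : ℂ → ℝ, MeasurableEmbedding e ∧ ∀ t, Bornology.IsBounded (e ⁻¹' Iic t) := by
  let s : ℂ → unitInterval := unitInterval.sigmoid ∘ embeddingReal ℂ
  have hs : MeasurableEmbedding s := measurableEmbedding_sigmoid_comp_embeddingReal ℂ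
  refine ⟨fun z => 2 * (⌊‖z‖⌋₊ : ℝ) + s z, Measurable.measurableEmbedding ?_ fun z w k => ?_,
    fun t => (isBounded_ball (x := (0 : ℂ)) (r := t + 1)).subset fun z k => ?_⟩
  · exact (((measurable_of_countable (Nat.cast : ℕ → ℝ)).comp
      (Nat.measurable_floor.comp measurable_norm)).const_mul 2).add
      (measurable_subtype_coe.comp hs.measurable)
  · have a : ⌊‖z‖⌋₊ < ⌊‖w‖⌋₊ + 1 := by
      rw [← Nat.cast_lt (α := ℝ)]; push_cast; linarith [(s z).2.1, (s w).2.2]
    have b : ⌊‖w‖⌋₊ < ⌊‖z‖⌋₊ + 1 := by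
      rw [← Nat.cast_lt (α := ℝ)]; push_cast; linarith [(s w).2.1, (s z).2.2]
    rw [show ⌊‖z‖⌋₊ = ⌊‖w‖⌋₊ by omega] at k
    exact hs.injective (Subtype.ext (add_left_cancel k))
  · have k : 2 * (⌊‖z‖⌋₊ : ℝ) + s z ≤ t := k
    rw [mem_ball_zero_iff]
    linarith [Nat.lt_floor_add_one ‖z‖, (s z).2.1, Nat.cast_nonneg (α := ℝ) ⌊‖z‖⌋₊]

theorem ex_list {e : ℂ → ℝ} (he : Function.Injective e) {T : Set ℂ} (hT : T.Infinite)
    (hf : ∀ t, (T ∩ e ⁻¹' Iic t).Finite) : ∃ x : ℕ → ℂ, Function.Injective x ∧ range x = T ∧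
      ∀ k t, e (x k) ≤ t ↔ k < (T ∩ e ⁻¹' Iic t).ncard := by
  let ρ : ℂ → ℕ := fun z => (T ∩ e ⁻¹' Iio (e z)).ncard
  have lt : ∀ z t, z ∈ T → e z ≤ t → ρ z < (T ∩ e ⁻¹' Iic t).ncard := fun z t hz k =>
    ncard_lt_ncard ⟨fun w hw => ⟨hw.1, (le_of_lt hw.2).trans k⟩, fun s =>
      lt_irrefl (e z) (s ⟨hz, k⟩).2⟩ (hf t)
  have mono : ∀ z ∈ T, ∀ w, e z < e w → ρ z < ρ w := fun z hz w k =>
    (lt z _ hz le_rfl).trans_le (ncard_le_ncard (fun u hu => ⟨hu.1, lt_of_le_of_lt hu.2 k⟩)
      ((hf (e w)).subset fun u hu => ⟨hu.1, le_of_lt (a := e u) hu.2⟩))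
  have inj : InjOn ρ T := fun z hz w hw k => he (le_antisymm
    (not_lt.1 fun j => (mono w hw z j).ne' k) (not_lt.1 fun j => (mono z hz w j).ne k))
  have sur : ∀ k t, k < (T ∩ e ⁻¹' Iic t).ncard → ∃ z ∈ T ∩ e ⁻¹' Iic t, ρ z = k := by
    intro k t hk
    have : ρ '' (T ∩ e ⁻¹' Iic t) = Iio (T ∩ e ⁻¹' Iic t).ncard := by
      refine eq_of_subset_of_ncard_le ?_ ?_ (finite_Iio _)
      · rintro _ ⟨z, hz, rfl⟩
        exact lt z t hz.1 hz.2
      · rw [(inj.mono inter_subset_left).ncard_image, ← Finset.coe_Iio, ncard_coe_finset,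
          Nat.card_Iio]
    exact this.symm.subset hk
  have all : ∀ k, ∃ z ∈ T, ρ z = k := fun k => by
    obtain ⟨F, s, f, c⟩ := hT.exists_subset_ncard_eq (k + 1)
    obtain ⟨t, ht⟩ := (f.image e).bddAbove
    have sub : F ⊆ T ∩ e ⁻¹' Iic t := fun w hw => ⟨s hw, ht (mem_image_of_mem e hw)⟩
    obtain ⟨z, hz, r⟩ := sur k t (lt_of_lt_of_le (by omega) (ncard_le_ncard sub (hf t)))
    exact ⟨z, hz.1, r⟩
  choose x xT xρ using all
  refine ⟨x, fun i j k => by rw [← xρ i, k, xρ], ?_, fun k t => ⟨fun j => ?_, fun j => ?_⟩⟩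
  · refine Subset.antisymm (range_subset_iff.2 xT) fun z hz => ⟨ρ z, inj (xT _) hz (xρ _)⟩
  · rw [← xρ k]
    exact lt _ t (xT k) j
  · obtain ⟨z, hz, r⟩ := sur k t j
    rw [inj (xT k) hz.1 ((xρ k).trans r.symm)]
    exact hz.2

/-- A measurable list of the points of a random locally finite set. -/
theorem ex_enum {Ω : Type*} [MeasurableSpace Ω] {η : Ω → Set ℂ}
    (hf : ∀ ω A, Bornology.IsBounded A → (η ω ∩ A).Finite)
    (hm : ∀ A : Set ℂ, MeasurableSet A → Bornology.IsBounded A →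
      Measurable fun ω => (η ω ∩ A).ncard) :
    ∃ X : ℕ → Ω → ℂ, (∀ i, Measurable (X i)) ∧ (∀ ω, Function.Injective fun i => X i ω) ∧
      ∀ ω, (η ω).Infinite → (range fun i => X i ω) = η ω := by
  classical
  obtain ⟨e, he, hb⟩ := ex_key
  have mN := fun t => hm _ (he.measurable (measurableSet_Iic (a := t))) (hb t)
  choose! x h1 h2 h3 using fun ω (k : (η ω).Infinite) =>
    ex_list he.injective k fun t => hf ω _ (hb t)
  have mG : MeasurableSet {ω | (η ω).Infinite} := by
    have : {ω | (η ω).Infinite} =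
        ⋂ k : ℕ, ⋃ n : ℕ, {ω | k < (η ω ∩ e ⁻¹' Iic (n : ℝ)).ncard} := by
      ext ω
      simp only [mem_ofPred_eq, mem_iInter, mem_iUnion]
      refine ⟨fun i k => ⟨⌈e (x ω k)⌉₊, (h3 ω i k _).1 (Nat.le_ceil _)⟩, fun i f => ?_⟩
      obtain ⟨n, hn⟩ := i (η ω).ncard
      exact hn.not_ge (ncard_le_ncard inter_subset_left f)
    rw [this]
    exact .iInter fun k => .iUnion fun n => mN n (measurableSet_Ioi (a := k))
  refine ⟨fun i ω => if (η ω).Infinite then x ω i else i, fun i => ?_, fun ω => ?_, fun ω k => ?_⟩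
  · refine he.measurable_comp_iff.1 (measurable_of_Iic fun t => ?_)
    have : (e ∘ fun ω => if (η ω).Infinite then x ω i else i) ⁻¹' Iic t =
        ({ω | (η ω).Infinite} ∩ {ω | i < (η ω ∩ e ⁻¹' Iic t).ncard}) ∪
          ({ω | (η ω).Infinite}ᶜ ∩ {_ω | e i ≤ t}) := by
      ext ω
      by_cases k : (η ω).Infinite
      · simp [k, h3 ω k]
      · simp [k]
    rw [this]
    exact (mG.inter (mN t (measurableSet_Ioi (a := i)))).union
      (mG.compl.inter (MeasurableSet.const _))
  · by_cases k : (η ω).Infinite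
    · simpa only [if_pos k] using h1 ω k
    · simpa only [if_neg k] using Nat.cast_injective
  · simpa only [if_pos k] using h2 ω k

variable {Ω : Type*} [MeasurableSpace Ω] {P : Measure Ω} {η : Ω → Set ℂ} {lam : ℝ≥0}

theorem IsPoisson.inf (h : IsPoisson P η lam) (hl : 0 < lam) : ∀ᵐ ω ∂P, (η ω).Infinite := by
  have key : ∀ k n : ℕ, P {ω | (η ω).ncard = k ∧ η ω ⊆ ball 0 n} = 0 := fun k n => by
    let r : ℕ → ℝ≥0 := fun m => lam * (volume (ball (0 : ℂ) m)).toNNReal
    have tr : Tendsto (fun m => (r m : ℝ)) atTop atTop := by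
      have : (fun m => (r m : ℝ)) = fun m : ℕ => lam * ((m : ℝ) ^ 2 * Real.pi) := by
        funext m
        simp [r, Complex.volume_ball]
      rw [this]
      exact (((tendsto_pow_atTop two_ne_zero).comp tendsto_natCast_atTop_atTop).atTop_mul_const
        Real.pi_pos).const_mul_atTop (NNReal.coe_pos.2 hl)
    have t0 := ENNReal.tendsto_ofReal ((((Real.tendsto_pow_mul_exp_neg_atTop_nhds_zero k).comp
      tr)).div_const (k.factorial : ℝ))
    rw [zero_div, ENNReal.ofReal_zero] at t0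
    refine le_antisymm (ge_of_tendsto t0 ?_) zero_le
    filter_upwards [eventually_ge_atTop n] with m hm
    have e := poissonMeasure_singleton (r m) k
    rw [← h.law _ measurableSet_ball isBounded_ball, Measure.map_apply
      (h.meas _ measurableSet_ball isBounded_ball) (measurableSet_singleton k), mul_comm] at e
    refine le_trans (measure_mono fun ω hω => ?_) e.le
    change (η ω ∩ ball 0 m).ncard = k
    rw [inter_eq_left.2 (hω.2.trans (ball_subset_ball (Nat.cast_le.2 hm))), hω.1]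
  refine measure_mono_null (fun ω hω => ?_)
    (measure_iUnion_null fun k => measure_iUnion_null fun n => key k n)
  obtain ⟨r, hr⟩ := (not_not.1 hω : (η ω).Finite).isBounded.subset_ball (0 : ℂ)
  exact mem_iUnion.2 ⟨_, mem_iUnion.2 ⟨⌈r⌉₊, rfl, hr.trans (ball_subset_ball (Nat.le_ceil r))⟩⟩

/-- A Poisson process has a list of its points which is measurable for the process. -/
theorem IsPoisson.enum (h : IsPoisson P η lam) (hl : 0 < lam) :
    ∃ X : ℕ → Ω → ℂ, (∀ i, Measurable[sigmaOf η] (X i)) ∧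
      (∀ ω, Function.Injective fun i => X i ω) ∧ ∀ᵐ ω ∂P, (range fun i => X i ω) = η ω := by
  obtain ⟨X, a, b, c⟩ := @ex_enum Ω (sigmaOf η) η (fun ω A k => h.fin k ω) fun A a b =>
    @measurable_to_countable' _ _ _ _ (sigmaOf η) _ fun n =>
      MeasurableSpace.measurableSet_generateFrom ⟨A, a, b, n, rfl⟩
  exact ⟨X, a, b, (h.inf hl).mono c⟩

theorem IsPoisson.sigma_le (h : IsPoisson P η lam) : sigmaOf η ≤ ‹MeasurableSpace Ω› := by
  refine MeasurableSpace.generateFrom_le ?_
  rintro _ ⟨A, a, b, n, rfl⟩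
  exact h.meas A a b (measurableSet_singleton n)

theorem iIndep_comp {Ω' ι : Type*} [MeasurableSpace Ω'] {Q : Measure Ω'} {f : Ω' → Ω}
    (hf : MeasurePreserving f Q P) {β : Type*} [MeasurableSpace β] {Y : ι → Ω → β}
    (mY : ∀ i, Measurable (Y i)) (h : iIndepFun Y P) : iIndepFun (fun i ω => Y i (f ω)) Q := by
  rw [iIndepFun_iff_measure_inter_preimage_eq_mul] at h ⊢
  intro S s hs
  have e := h S hs
  rw [← hf.measure_preimage (Finset.measurableSet_biInter _ fun i k =>
    mY i (hs i k)).nullMeasurableSet, preimage_iInter₂] at e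
  exact e.trans (Finset.prod_congr rfl fun i k =>
    (hf.measure_preimage (mY i (hs i k)).nullMeasurableSet).symm)

theorem IsPoisson.comp {Ω' : Type*} [MeasurableSpace Ω'] {Q : Measure Ω'} {f : Ω' → Ω}
    (h : IsPoisson P η lam) (hf : MeasurePreserving f Q P) : IsPoisson Q (fun ω => η (f ω)) lam :=
  ⟨fun _ => h.locFin _, fun A a b => (h.meas A a b).comp hf.measurable, fun A a b => by
    rw [← h.law A a b, ← hf.map_eq, Measure.map_map (h.meas A a b) hf.measurable]; rfl,
    fun n A a b d => iIndep_comp hf (fun i => h.meas _ (a i) (b i)) (h.indep n A a b d)⟩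

/-- The positions of a coloured Poisson process. -/
theorem poisson_pts {S : Ω → Set Pt} (h : IsColouredPoisson P S lam) :
    IsPoisson P (fun ω => pts (S ω)) lam := by
  have e : ∀ ω A, (pts (S ω) ∩ A).ncard = (S ω ∩ A ×ˢ univ).ncard := fun ω A => by
    rw [prod_univ, pts, ← image_inter_preimage]
    refine InjOn.ncard_image ?_
    rintro ⟨z, c⟩ hz ⟨w, c'⟩ hw (rfl : z = w)
    have := h.oneColour ω z
    cases c <;> cases c'
    exacts [rfl, absurd ⟨hw.1, hz.1⟩ this, absurd ⟨hz.1, hw.1⟩ this, rfl]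
  have b : ∀ {A : Set ℂ}, Bornology.IsBounded A → Bdd (A ×ˢ univ) := fun k =>
    (k.subset_ball 0).imp fun _ j => prod_mono j subset_rfl
  simp only [← funext_iff] at e
  refine ⟨fun ω r => ((h.locFin ω r).image Prod.fst).subset ?_, fun A a k => ?_, fun A a k => ?_,
    fun n A a k d => ?_⟩
  · rintro _ ⟨⟨q, hq, rfl⟩, k⟩
    exact ⟨q, ⟨hq, k, mem_univ _⟩, rfl⟩
  · simp only [fun ω => congrFun (congrFun e ω) A]
    exact h.meas _ (a.prod .univ) (b k)
  · simp only [fun ω => congrFun (congrFun e ω) A]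
    rw [h.law _ (a.prod .univ) (b k), inten_eq (a.prod .univ)]
    congr 1
    have : ∀ c, sec (A ×ˢ univ) c = A := fun c => by ext; simp [sec]
    rw [this, this, ENNReal.add_div, ENNReal.add_halves, ENNReal.toNNReal_mul]
    rfl
  · simp only [fun ω i => congrFun (congrFun e ω) (A i)]
    exact h.indep n _ (fun i => (a i).prod .univ) (fun i => b (k i)) fun i j ij =>
      (d ij).set_prod_left _ _

/-- Independent fair colourings exist on the product with a sequence of coins. -/
theorem ex_col [IsProbabilityMeasure P] (h : IsPoisson P η lam) (hl : 0 < lam) :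
    ∃ (Q : Measure (Ω × (ℕ → Bool))) (_ : IsProbabilityMeasure Q) (col : Ω × (ℕ → Bool) → ℂ → Bool)
      (X : ℕ → Ω × (ℕ → Bool) → ℂ), IsPoisson Q (fun ω => η ω.1) lam ∧
      IsColouring Q (fun ω => η ω.1) col X := by
  obtain ⟨X, a, b, c⟩ := h.enum hl
  replace a : ∀ i, Measurable (X i) := fun i => (a i).mono h.sigma_le le_rfl
  have : IsProbabilityMeasure fair := ⟨by
    rw [fair, Measure.smul_apply, Measure.count_univ]
    simp [ENNReal.inv_mul_cancel]⟩
  let ν : Measure (ℕ → Bool) := Measure.infinitePi fun _ => fair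
  have f1 : MeasurePreserving Prod.fst (P.prod ν) P := measurePreserving_fst
  have f2 : MeasurePreserving Prod.snd (P.prod ν) ν := measurePreserving_snd
  have e : ∀ i (ω : Ω × (ℕ → Bool)), ω.2 (Function.invFun (fun i => X i ω.1) (X i ω.1)) = ω.2 i :=
    fun i ω => congrArg ω.2 (Function.leftInverse_invFun (b ω.1) i)
  refine ⟨P.prod ν, inferInstance, fun ω z => ω.2 (Function.invFun (fun i => X i ω.1) z),
    fun i ω => X i ω.1, h.comp f1, fun i => (a i).comp measurable_fst,
    (f1.quasiMeasurePreserving.ae c).mono fun ω k => ⟨b ω.1, k⟩, fun i => ?_, fun i => ?_, ?_, ?_⟩ <;>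
    simp only [e]
  · fun_prop
  · have := ((measurePreserving_eval_infinitePi (fun _ : ℕ => fair) i).comp f2).measure_preimage
      (measurableSet_singleton true).nullMeasurableSet
    refine this.trans ?_
    simp [fair]
  · exact iIndep_comp f2 (fun i => measurable_pi_apply i)
      (iIndepFun_infinitePi (X := fun _ b => b) fun _ => measurable_id)
  · exact indepFun_prod (X := fun ω i => X i ω) (Y := fun b : ℕ → Bool => b)
      (measurable_pi_lambda _ a) measurable_id

end Vale.Agent.P148M96
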