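import Vale.Agent.P148M96.St

/-!
# The generating functional of a Poisson process, and averaging over fair coins
-/

open MeasureTheory Set Metric ProbabilityTheory Filter Topology
open scoped NNReal ENNReal

namespace Vale.Agent.P148M96

open P148

variable {Ω : Type*} [MeasurableSpace Ω] {P : Measure Ω} [IsProbabilityMeasure P]
  {η : Ω → Set ℂ} {lam : ℝ≥0}

theorem pgf (r : ℝ≥0) (v : ℂ) : ∫ n, v ^ n ∂poissonMeasure r = Complex.exp (r * (v - 1)) := by
  rw [integral_poissonMeasure]
  calc ∑' a : ℕ, (Real.exp (-r) * r ^ a / a.factorial : ℝ) • v ^ a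
  _ = ∑' a : ℕ, (Real.exp (-r) : ℂ) * ((r * v) ^ a / a.factorial) := by
      congr with a
      rw [Complex.real_smul]
      push_cast
      ring
  _ = (Real.exp (-r) : ℂ) * Complex.exp (r * v) := by
      rw [tsum_mul_left, (NormedSpace.expSeries_div_hasSum_exp ((r : ℂ) * v)).tsum_eq,
        Complex.exp_eq_exp_ℂ]
  _ = _ := by
      rw [Complex.ofReal_exp, ← Complex.exp_add]
      push_cast
      ring_nf

omit [IsProbabilityMeasure P] in
theorem IsPoisson.fin (h : IsPoisson P η lam) {A : Set ℂ} (hA : Bornology.IsBounded A) (ω : Ω) :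
    (η ω ∩ A).Finite := by
  obtain ⟨r, hr⟩ := hA.subset_ball (0 : ℂ)
  exact (h.locFin ω r).subset (inter_subset_inter_right _ hr)

omit [IsProbabilityMeasure P] in
/-- The generating functional on simple functions. -/
theorem lap (h : IsPoisson P η lam) {ι : Type} [Fintype ι] (τ : ℂ → ι)
    (hτ : ∀ a, MeasurableSet (τ ⁻¹' {a})) {K : Set ℂ} (hK : MeasurableSet K)
    (hb : Bornology.IsBounded K) (v : ι → ℂ) :
    ∫ ω, ∏ᶠ z ∈ η ω ∩ K, v (τ z) ∂P = Complex.exp (lam * ∫ z in K, (v (τ z) - 1)) := by
  classical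
  let B : ι → Set ℂ := fun a => K ∩ τ ⁻¹' {a}
  have mB : ∀ a, MeasurableSet (B a) := fun a => hK.inter (hτ a)
  have bB : ∀ a, Bornology.IsBounded (B a) := fun a => hb.subset inter_subset_left
  have e1 : ∀ ω, ∏ᶠ z ∈ η ω ∩ K, v (τ z) = ∏ a, v a ^ (η ω ∩ B a).ncard := fun ω => by
    rw [finprod_mem_eq_finite_toFinset_prod _ (h.fin hb ω), ← Finset.prod_fiberwise_of_maps_to
      (t := Finset.univ) (g := τ) (fun _ _ => Finset.mem_univ _)]
    refine Finset.prod_congr rfl fun a _ => ?_
    rw [Finset.prod_congr rfl (g := fun _ => v a) fun z hz => by rw [(Finset.mem_filter.1 hz).2],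
      Finset.prod_const, ← ncard_coe_finset]
    congr 2
    ext z
    simp only [B, Finset.coe_filter, Finite.mem_toFinset, mem_inter_iff, mem_ofPred_eq,
      mem_preimage, mem_singleton_iff, and_assoc]
  have ind : iIndepFun (fun a ω => (η ω ∩ B a).ncard) P := by
    let e := (Fintype.equivFin ι).symm
    refine iIndepFun.of_precomp (g := e) e.surjective (h.indep _ (fun i => B (e i))
      (fun i => mB _) (fun i => bB _) fun i j hij => ?_)
    exact disjoint_left.2 fun z a b => hij (e.injective (a.2.symm.trans b.2))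
  have fK : volume K ≠ ⊤ := hb.measure_lt_top.ne
  have e2 : ∫ z in K, (v (τ z) - 1) = ∑ a, ((volume (B a)).toReal : ℂ) * (v a - 1) := by
    have k : ∀ z, v (τ z) - 1 = ∑ a, (τ ⁻¹' {a}).indicator (fun _ => v a - 1) z := fun z => by
      rw [Finset.sum_eq_single (τ z) (fun a _ k => indicator_of_notMem (fun k' => k k'.symm) _)
        (by simp), indicator_of_mem (by simp)]
    have : IsFiniteMeasure (volume.restrict K) := isFiniteMeasure_restrict.2 fK
    rw [funext k, integral_finsetSum _ fun a _ => (integrable_const _).indicator (hτ a)]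
    refine Finset.sum_congr rfl fun a _ => ?_
    rw [integral_indicator_const _ (hτ a), measureReal_def, Measure.restrict_apply (hτ a),
      inter_comm, Complex.real_smul]
  simp_rw [e1]
  rw [ind.integral_fun_prod_comp (f := fun a n => v a ^ n)
    (fun a => (h.meas _ (mB a) (bB a)).aemeasurable) fun _ => .of_discrete, e2, Finset.mul_sum,
    Complex.exp_sum]
  refine Finset.prod_congr rfl fun a _ => ?_
  rw [← integral_map (f := fun n => v a ^ n) (h.meas _ (mB a) (bB a)).aemeasurable .of_discrete,
    h.law _ (mB a) (bB a), pgf]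
  congr 1
  push_cast
  rw [mul_assoc]

theorem int_coin {c : Ω → Bool} (mc : Measurable c) (hc : P {ω | c ω = true} = 1 / 2)
    (f : Bool → ℂ) : ∫ ω, f (c ω) ∂P = (f true + f false) / 2 := by
  have m : MeasurableSet {ω | c ω = true} := mc (measurableSet_singleton true)
  have e : (fun ω => f (c ω)) = fun ω => {ω | c ω = true}.indicator (fun _ => f true - f false) ω
      + f false := by
    funext ω
    cases k : c ω <;> simp [indicator, k]
  rw [e, integral_add ((integrable_const _).indicator m) (integrable_const _),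
    integral_indicator_const _ m, measureReal_def, hc]
  simp
  ring

/-- Averaging over the colours, finitely many points. -/
theorem avg_fin {col : Ω → ℂ → Bool} {X : ℕ → Ω → ℂ} (h : IsColouring P η col X)
    {g : ℂ → Bool → ℂ} (mg : ∀ b, Measurable fun z => g z b) (bg : ∀ z b, ‖g z b‖ ≤ 1) (n : ℕ) :
    ∫ ω, ∏ i : Fin n, g (X i ω) (col ω (X i ω)) ∂P =
      ∫ ω, ∏ i : Fin n, (g (X i ω) true + g (X i ω) false) / 2 ∂P := by
  have mX : Measurable fun ω i => X i ω := measurable_pi_lambda _ h.measX
  have mC : Measurable fun ω i => col ω (X i ω) := measurable_pi_lambda _ h.measC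
  have mg' : Measurable fun q : ℂ × Bool => g q.1 q.2 := measurable_from_prod_countable_left mg
  let F : (ℕ → ℂ) × (ℕ → Bool) → ℂ := fun q => ∏ i : Fin n, g (q.1 i) (q.2 i)
  have mF : Measurable F := Finset.measurable_prod _ fun i _ =>
    mg'.comp (f := fun q : (ℕ → ℂ) × (ℕ → Bool) => (q.1 i, q.2 i)) (by fun_prop)
  have m2 : Measurable fun x : ℕ → ℂ => ∏ i : Fin n, (g (x i) true + g (x i) false) / 2 :=
    Finset.measurable_prod _ fun i _ => (((mg true).comp (measurable_pi_apply _)).add
      ((mg false).comp (measurable_pi_apply _))).div_const _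
  have := Measure.isProbabilityMeasure_map (μ := P) mX.aemeasurable
  have := Measure.isProbabilityMeasure_map (μ := P) mC.aemeasurable
  rw [← integral_map (f := F) (mX.prodMk mC).aemeasurable mF.aestronglyMeasurable,
    h.indep.map_prod_eq_prod_map_map mX.aemeasurable mC.aemeasurable, integral_prod _
      (Integrable.of_bound mF.aestronglyMeasurable 1 (.of_forall fun q => by
        rw [norm_prod]; exact Finset.prod_le_one (fun _ _ => norm_nonneg _) fun _ _ => bg _ _)),
    ← integral_map mX.aemeasurable m2.aestronglyMeasurable]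
  refine integral_congr_ae (.of_forall fun x => ?_)
  dsimp only
  rw [integral_map (f := fun y => F (x, y)) mC.aemeasurable (mF.comp measurable_prodMk_left).aestronglyMeasurable]
  have I : iIndepFun (fun (i : Fin n) ω => col ω (X i ω)) P := h.iid.precomp Fin.val_injective
  refine (I.integral_fun_prod_comp (f := fun (i : Fin n) b => g (x i) b)
    (fun i => (h.measC i).aemeasurable) fun _ => .of_discrete).trans ?_
  exact Finset.prod_congr rfl fun i _ => int_coin (h.measC i) (h.half i) _

omit [MeasurableSpace Ω] in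
theorem tend_prod {x : ℕ → ℂ} (hx : Function.Injective x) {K : Set ℂ} (hf : (range x ∩ K).Finite)
    (f : ℂ → ℂ) (hK : ∀ z ∉ K, f z = 1) :
    Tendsto (fun n => ∏ i : Fin n, f (x i)) atTop (𝓝 (∏ᶠ z ∈ range x ∩ K, f z)) := by
  classical
  have h1 : (x ⁻¹' K).Finite := by
    refine (hf.preimage hx.injOn).subset fun i hi => ⟨mem_range_self i, hi⟩
  obtain ⟨N, hN⟩ := h1.bddAbove
  refine tendsto_const_nhds.congr' ?_
  filter_upwards [eventually_gt_atTop N] with n hn
  rw [Fin.prod_univ_eq_prod_range (fun i => f (x i)), ← image_preimage_eq_range_inter,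
    finprod_mem_image hx.injOn, finprod_mem_eq_finite_toFinset_prod _ h1]
  refine Finset.prod_subset (fun i hi => ?_) fun i _ hi => hK _ (by simpa using hi)
  exact Finset.mem_range.2 ((hN (h1.mem_toFinset.1 hi)).trans_lt hn)

/-- Averaging over the colours. -/
theorem avg (hη : IsPoisson P η lam) {col : Ω → ℂ → Bool} {X : ℕ → Ω → ℂ}
    (h : IsColouring P η col X) {g : ℂ → Bool → ℂ} (mg : ∀ b, Measurable fun z => g z b)
    (bg : ∀ z b, ‖g z b‖ ≤ 1) {K : Set ℂ} (hb : Bornology.IsBounded K)
    (hK : ∀ z ∉ K, ∀ b, g z b = 1) :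
    ∫ ω, ∏ᶠ z ∈ η ω ∩ K, g z (col ω z) ∂P =
      ∫ ω, ∏ᶠ z ∈ η ω ∩ K, (g z true + g z false) / 2 ∂P := by
  have mg' : Measurable fun q : ℂ × Bool => g q.1 q.2 := measurable_from_prod_countable_left mg
  have key : ∀ f : Ω → ℂ → ℂ, (∀ i, Measurable fun ω => f ω (X i ω)) → (∀ ω z, ‖f ω z‖ ≤ 1) →
      (∀ ω, ∀ z ∉ K, f ω z = 1) → Tendsto (fun n => ∫ ω, ∏ i : Fin n, f ω (X i ω) ∂P) atTop
        (𝓝 (∫ ω, ∏ᶠ z ∈ η ω ∩ K, f ω z ∂P)) := fun f m b k => by
    refine tendsto_integral_of_dominated_convergence (fun _ => 1) (fun n =>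
      (Finset.measurable_prod _ fun (i : Fin n) _ => m i).aestronglyMeasurable) (integrable_const _)
      (fun n => .of_forall fun ω => ?_) ?_
    · rw [norm_prod]
      exact Finset.prod_le_one (fun _ _ => norm_nonneg _) fun _ _ => b _ _
    · filter_upwards [h.list] with ω hω
      rw [← hω.2]
      exact tend_prod hω.1 (hω.2 ▸ hη.fin hb ω) _ (k ω)
  refine tendsto_nhds_unique (key (fun ω z => g z (col ω z))
    (fun i => mg'.comp ((h.measX i).prodMk (h.measC i))) (fun _ _ => bg _ _)
    fun _ z k => hK z k _) ?_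
  simp_rw [avg_fin h mg bg]
  refine key (fun _ z => (g z true + g z false) / 2) (fun i => (((mg true).comp (h.measX i)).add
    ((mg false).comp (h.measX i))).div_const _) (fun _ z => ?_) fun _ z k => ?_
  · rw [norm_div, Complex.norm_two]
    linarith [norm_add_le (g z true) (g z false), bg z true, bg z false]
  · rw [hK z k, hK z k]; norm_num

end Vale.Agent.P148M96
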