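import Vale.Agent.P148M96.Enum
import Vale.Agent.P148.R2.H771.JQuad
import Vale.Agent.P148.R2.H771.Cond

/-!
# Cardy's formula for Poisson points with independent fair colours
-/

open MeasureTheory Set Metric ProbabilityTheory Filter Topology
open scoped NNReal ENNReal

namespace Vale.Agent.P148M96

open _root_.P148
open Vale.Agent.P148.R2.H771 (posSigma)

universe u

theorem pts_marked (T : Set ℂ) (c : ℂ → Bool) : pts (marked T c) = T :=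
  Subset.antisymm (fun _ ⟨_, k, e⟩ => e ▸ k.1) fun z k => ⟨(z, c z), ⟨k, rfl⟩, rfl⟩

theorem black_marked (T : Set ℂ) (c : ℂ → Bool) : blackRegion (marked T c) = black T c := by
  simp only [blackRegion, black, cell, vor, pts_marked, dist_eq_norm]
  rfl

theorem sigma_marked {Ω : Type*} (η : Ω → Set ℂ) (c : Ω → ℂ → Bool) :
    posSigma (fun ω => marked (η ω) (c ω)) = sigmaOf η := by
  simp only [posSigma, sigmaOf, pts_marked]

theorem main_of (H :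
    (∀ lam : ℝ≥0, ∃ (Ω : Type u) (_ : MeasurableSpace Ω) (P : Measure Ω)
      (_ : IsProbabilityMeasure P) (S : Ω → Set Pt), IsColouredPoisson P S lam) ∧
    (∀ Q : JQuad, (∀ R, Q.rev.Cross 0 2 R ↔ Q.Cross 0 2 R) ∧
      ((∃ φ x, Q.IsUniformizer φ x) ∨ ∃ φ x, Q.rev.IsUniformizer φ x)) ∧
    (∀ (Ω : Type u) [m : MeasurableSpace Ω] (P : Measure Ω) [IsProbabilityMeasure P]
      (S : Ω → Set Pt) (lam : ℝ≥0), 0 < lam → IsColouredPoisson P S lam →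
      posSigma S ≤ m ∧
        ∀ Q : JQuad, NullMeasurableSet {ω | Q.Cross 0 2 (blackRegion (S ω))} P) ∧
    ∀ (Q : JQuad) (φ : ℂ → ℂ) (x : ℝ), Q.IsUniformizer φ x → (0 < x ∧ x < 1) ∧
      ∀ (Ω : ℝ → Type u) [∀ ε, MeasurableSpace (Ω ε)] (P : ∀ ε, Measure (Ω ε))
        [∀ ε, IsProbabilityMeasure (P ε)] (S : ∀ ε, Ω ε → Set Pt),
        (∀ ε > 0, IsColouredPoisson (P ε) (S ε) (Real.toNNReal (ε ^ (-2 : ℤ)))) →
        Tendsto (fun ε => (P ε {ω | Q.Cross 0 2 (blackRegion (S ε ω))}).toReal) (𝓝[>] 0)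
          (𝓝 (cardy x)) ∧
        Tendsto (fun ε => ∫ ω, |((P ε)[{ω | Q.Cross 0 2 (blackRegion (S ε ω))}.indicator
          (fun _ => (1 : ℝ)) | posSigma (S ε)]) ω - cardy x| ∂(P ε)) (𝓝[>] 0) (𝓝 0)) :
    (∀ lam : ℝ≥0, 0 < lam → ∃ (Ω : Type u) (_ : MeasurableSpace Ω) (P : Measure Ω)
      (_ : IsProbabilityMeasure P) (η : Ω → Set ℂ) (col : Ω → ℂ → Bool) (X : ℕ → Ω → ℂ),
      IsPoisson P η lam ∧ IsColouring P η col X) ∧
    (∀ Q : JQuad, (∀ R, Q.rev.Cross 0 2 R ↔ Q.Cross 0 2 R) ∧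
      ((∃ φ x, Q.IsUniformizer φ x) ∨ ∃ φ x, Q.rev.IsUniformizer φ x)) ∧
    (∀ (Ω : Type u) [m : MeasurableSpace Ω] (P : Measure Ω) [IsProbabilityMeasure P]
      (η : Ω → Set ℂ) (lam : ℝ≥0), 0 < lam → IsPoisson P η lam → sigmaOf η ≤ m ∧
      (∃ X : ℕ → Ω → ℂ, (∀ i, Measurable[sigmaOf η] (X i)) ∧
        (∀ ω, Function.Injective fun i => X i ω) ∧ ∀ᵐ ω ∂P, (range fun i => X i ω) = η ω) ∧
      ∀ col X, IsColouring P η col X →
        (∃ col' : Ω → ℂ → Bool, (∀ᵐ ω ∂P, col' ω = col ω) ∧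
          IsColouredPoisson P (fun ω => marked (η ω) (col' ω)) lam) ∧
        ∀ Q : JQuad, NullMeasurableSet {ω | Q.Cross 0 2 (black (η ω) (col ω))} P) ∧
    ∀ (Q : JQuad) (φ : ℂ → ℂ) (x : ℝ), Q.IsUniformizer φ x → (0 < x ∧ x < 1) ∧
      ∀ (Ω : ℝ → Type u) [∀ ε, MeasurableSpace (Ω ε)] (P : ∀ ε, Measure (Ω ε))
        [∀ ε, IsProbabilityMeasure (P ε)] (η : ∀ ε, Ω ε → Set ℂ) (col : ∀ ε, Ω ε → ℂ → Bool),
        (∀ ε > 0, IsPoisson (P ε) (η ε) (Real.toNNReal (ε ^ (-2 : ℤ))) ∧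
          ∃ X, IsColouring (P ε) (η ε) (col ε) X) →
        Tendsto (fun ε => (P ε {ω | Q.Cross 0 2 (black (η ε ω) (col ε ω))}).toReal) (𝓝[>] 0)
          (𝓝 (cardy x)) ∧
        Tendsto (fun ε => ∫ ω, |((P ε)[{ω | Q.Cross 0 2 (black (η ε ω) (col ε ω))}.indicator
          (fun _ => (1 : ℝ)) | sigmaOf (η ε)]) ω - cardy x| ∂(P ε)) (𝓝[>] 0) (𝓝 0) := by
  obtain ⟨h1, h2, h3, h4⟩ := H
  have ev : ∀ {Ω : Type u} [MeasurableSpace Ω] {P : Measure Ω} (Q : JQuad) (η : Ω → Set ℂ)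
      {c c' : Ω → ℂ → Bool}, (∀ᵐ ω ∂P, c' ω = c ω) →
      {ω | Q.Cross 0 2 (blackRegion (marked (η ω) (c' ω)))} =ᵐ[P]
        {ω | Q.Cross 0 2 (black (η ω) (c ω))} := fun Q η c c' k => k.mono fun ω k => by
    change Q.Cross 0 2 _ = Q.Cross 0 2 _
    rw [black_marked, k]
  refine ⟨fun lam hl => ?_, h2, fun Ω m P _ η lam hl h => ⟨h.sigma_le, h.enum hl, fun col X k => ?_⟩,
    fun Q φ x u => ⟨(h4 Q φ x u).1, fun Ω _ P _ η col h => ?_⟩⟩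
  · obtain ⟨Ω, m, P, p, S, h⟩ := h1 lam
    obtain ⟨Q, q, col, X, k⟩ := ex_col (poisson_pts h) hl
    exact ⟨_, _, Q, q, _, col, X, k⟩
  · obtain ⟨c', a, b⟩ := mark h k
    exact ⟨⟨c', a, b⟩, fun Q => ((h3 Ω P _ lam hl b).2 Q).congr (ev Q η a)⟩
  · choose! c' a b using fun ε (k : ε > 0) => mark (h ε k).1 (h ε k).2.choose_spec
    obtain ⟨t1, t2⟩ := (h4 Q φ x u).2 Ω P (fun ε ω => marked (η ε ω) (c' ε ω)) b
    refine ⟨t1.congr' ?_, t2.congr' ?_⟩ <;> filter_upwards [self_mem_nhdsWithin] with ε k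
    · rw [measure_congr (ev Q (η ε) (a ε k))]
    · rw [sigma_marked]
      refine integral_congr_ae ?_
      filter_upwards [condExp_congr_ae (m := sigmaOf (η ε))
        (indicator_ae_eq_of_ae_eq_set (f := fun _ => (1 : ℝ)) (ev Q (η ε) (a ε k)))] with ω j
      rw [j]

end Vale.Agent.P148M96
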