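import Vale.Agent.P148M96.Lap

/-!
# The marking theorem
-/

open MeasureTheory Set Metric ProbabilityTheory Filter Topology
open scoped NNReal ENNReal

namespace Vale.Agent.P148M96

open P148

variable {Ω : Type*} [MeasurableSpace Ω] {P : Measure Ω} [IsProbabilityMeasure P]
  {η : Ω → Set ℂ} {lam : ℝ≥0} {col : Ω → ℂ → Bool} {X : ℕ → Ω → ℂ}

/-- The section of a set of coloured points. -/
def sec (A : Set Pt) (b : Bool) : Set ℂ := {z | (z, b) ∈ A}

theorem sec_meas {A : Set Pt} (hA : MeasurableSet A) (b : Bool) : MeasurableSet (sec A b) :=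
  measurable_prodMk_right hA

theorem sec_bdd {A : Set Pt} (hA : Bdd A) (b : Bool) : Bornology.IsBounded (sec A b) := by
  obtain ⟨r, hr⟩ := hA
  exact isBounded_ball.subset fun z hz => (hr hz).1

theorem inten_eq {A : Set Pt} (hA : MeasurableSet A) :
    inten lam A = lam * ((volume (sec A true) + volume (sec A false)) / 2) := by
  have : IsFiniteMeasure fair := ⟨ENNReal.mul_lt_top (by simp) (measure_lt_top Measure.count _)⟩
  rw [inten, Measure.smul_apply, Measure.prod_apply_symm hA, fair, lintegral_smul_measure,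
    lintegral_count, tsum_bool, add_comm, smul_eq_mul, ENNReal.div_eq_inv_mul]
  rfl

theorem inten_real {A : Set Pt} (hA : MeasurableSet A) (hb : Bdd A) :
    ((inten lam A).toNNReal : ℝ) =
      lam * (((volume (sec A true)).toReal + (volume (sec A false)).toReal) / 2) := by
  rw [ENNReal.coe_toNNReal_eq_toReal, inten_eq hA, ENNReal.toReal_mul, ENNReal.toReal_div,
    ENNReal.toReal_add (sec_bdd hb _).measure_lt_top.ne (sec_bdd hb _).measure_lt_top.ne]
  simp

theorem ncard_marked (T : Set ℂ) (c : ℂ → Bool) (A : Set Pt) :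
    (marked T c ∩ A).ncard = {z ∈ T | (z, c z) ∈ A}.ncard := by
  rw [← ncard_image_of_injective {z ∈ T | (z, c z) ∈ A} (f := fun z => (z, c z))
    fun _ _ k => congrArg Prod.fst k]
  congr 1
  ext ⟨z, b⟩
  constructor
  · rintro ⟨⟨h1, h2⟩, h3⟩
    obtain rfl : c z = b := h2
    exact ⟨z, ⟨h1, h3⟩, rfl⟩
  · rintro ⟨w, ⟨h1, h2⟩, k⟩
    cases k
    exact ⟨⟨h1, rfl⟩, h2⟩

/-- The joint generating function of the numbers of coloured points. -/
theorem joint (hη : IsPoisson P η lam) (h : IsColouring P η col X) {n : ℕ} {A : Fin n → Set Pt}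
    (mA : ∀ i, MeasurableSet (A i)) (bA : ∀ i, Bdd (A i))
    (dA : Pairwise fun i j => Disjoint (A i) (A j)) (e : Fin n → ℂ) (he : ∀ j, ‖e j‖ ≤ 1) :
    ∫ ω, ∏ j, e j ^ (marked (η ω) (col ω) ∩ A j).ncard ∂P =
      ∏ j, Complex.exp ((inten lam (A j)).toNNReal * (e j - 1)) := by
  classical
  let K : Set ℂ := ⋃ j, ⋃ b, sec (A j) b
  have mK : MeasurableSet K := .iUnion fun j => .iUnion fun b => sec_meas (mA j) b
  have bK : Bornology.IsBounded K := Bornology.isBounded_iUnion.2 fun j =>
    Bornology.isBounded_iUnion.2 fun b => sec_bdd (bA j) b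
  have sK : ∀ j b, sec (A j) b ⊆ K := fun j b z hz => mem_iUnion.2 ⟨j, mem_iUnion.2 ⟨b, hz⟩⟩
  let g : ℂ → Bool → ℂ := fun z b => ∏ j, if (z, b) ∈ A j then e j else 1
  have e1 : ∀ ω, ∏ j, e j ^ (marked (η ω) (col ω) ∩ A j).ncard =
      ∏ᶠ z ∈ η ω ∩ K, g z (col ω z) := fun ω => by
    rw [finprod_mem_eq_finite_toFinset_prod _ (hη.fin bK ω), Finset.prod_comm]
    refine Finset.prod_congr rfl fun j _ => ?_
    rw [← Finset.prod_filter, Finset.prod_const, ← ncard_coe_finset, ncard_marked]
    congr 2
    ext z
    simp only [Finset.coe_filter, Finite.mem_toFinset, mem_inter_iff, mem_ofPred_eq]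
    exact ⟨fun k => ⟨⟨k.1, sK j _ k.2⟩, k.2⟩, fun k => ⟨k.1.1, k.2⟩⟩
  have e2 : ∀ z b, g z b - 1 = ∑ j, (sec (A j) b).indicator (fun _ => e j - 1) z := fun z b => by
    by_cases k : ∃ j, (z, b) ∈ A j
    · obtain ⟨j, k⟩ := k
      have o : ∀ i, i ≠ j → (z, b) ∉ A i := fun i hi k' => disjoint_left.1 (dA hi) k' k
      rw [Finset.sum_eq_single j (fun i _ hi => indicator_of_notMem (s := sec (A i) b) (o i hi) _)
        (by simp), indicator_of_mem (s := sec (A j) b) k]
      simp only [g]
      rw [Finset.prod_eq_single j (fun i _ hi => if_neg (o i hi)) (by simp), if_pos k]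
    · push Not at k
      rw [Finset.sum_eq_zero fun i _ => indicator_of_notMem (s := sec (A i) b) (k i) _]
      simp [g, k]
  let τ : ℂ → Fin n × Bool → Prop := fun z p => (z, p.2) ∈ A p.1
  have mτ : ∀ a, MeasurableSet (τ ⁻¹' {a}) := fun a =>
    (measurable_pi_lambda τ fun p => (sec_meas (mA p.1) p.2).mem) (measurableSet_singleton a)
  have L := lap hη τ mτ mK bK fun a =>
    ((∏ j, if a (j, true) then e j else 1) + ∏ j, if a (j, false) then e j else 1) / 2
  have : IsFiniteMeasure (volume.restrict K) := isFiniteMeasure_restrict.2 bK.measure_lt_top.ne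
  have it : ∀ j b, Integrable ((sec (A j) b).indicator fun _ => e j - 1) (volume.restrict K) :=
    fun j b => (integrable_const _).indicator (sec_meas (mA j) b)
  have iv : ∀ j b, ∫ z in K, (sec (A j) b).indicator (fun _ => e j - 1) z =
      (volume (sec (A j) b)).toReal * (e j - 1) := fun j b => by
    rw [integral_indicator_const _ (sec_meas (mA j) b), measureReal_def,
      Measure.restrict_apply (sec_meas (mA j) b), inter_eq_left.2 (sK j b), Complex.real_smul]
  have e3 : (fun z => (g z true + g z false) / 2 - 1) = fun z => ∑ j,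
      ((sec (A j) true).indicator (fun _ => e j - 1) z +
        (sec (A j) false).indicator (fun _ => e j - 1) z) / 2 := by
    funext z
    rw [← Finset.sum_div, Finset.sum_add_distrib, ← e2, ← e2]
    ring
  simp_rw [e1]
  rw [avg hη h (g := g) (fun b => Finset.measurable_prod _ fun j _ =>
    Measurable.ite (sec_meas (mA j) b) measurable_const measurable_const) (fun z b => ?_) bK
    fun z k b => Finset.prod_eq_one fun j _ => if_neg fun k' => k (sK j b k')]
  · refine L.trans ?_
    change Complex.exp (lam * ∫ z in K, ((g z true + g z false) / 2 - 1)) = _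
    rw [e3, integral_finsetSum _ fun j _ => ((it j true).fun_add (it j false)).div_const 2,
      Finset.mul_sum, Complex.exp_sum]
    refine Finset.prod_congr rfl fun j _ => ?_
    rw [integral_div, integral_add (it j true) (it j false), iv, iv, inten_real (mA j) (bA j)]
    congr 1
    push_cast
    ring
  · rw [norm_prod]
    refine Finset.prod_le_one (fun _ _ => norm_nonneg _) fun j _ => ?_
    split_ifs
    exacts [he j, norm_one.le]

theorem mark_of (hη : IsPoisson P η lam) (h : IsColouring P η col X)
    (hm : ∀ A : Set Pt, MeasurableSet A → Bdd A →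
      Measurable fun ω => (marked (η ω) (col ω) ∩ A).ncard) :
    IsColouredPoisson P (fun ω => marked (η ω) (col ω)) lam := by
  have mR : ∀ A : Set Pt, MeasurableSet A → Bdd A →
      Measurable fun ω => ((marked (η ω) (col ω) ∩ A).ncard : ℝ) := fun A a b =>
    (measurable_of_countable (Nat.cast : ℕ → ℝ)).comp (hm A a b)
  have ne : ∀ t : ℝ, ‖Complex.exp (t * Complex.I)‖ ≤ 1 := fun t =>
    (Complex.norm_exp_ofReal_mul_I t).le
  have cf : ∀ A : Set Pt, MeasurableSet A → Bdd A → ∀ t : ℝ,
      charFun (P.map fun ω => ((marked (η ω) (col ω) ∩ A).ncard : ℝ)) t =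
        Complex.exp ((inten lam A).toNNReal * (Complex.exp (t * Complex.I) - 1)) := by
    intro A a b t
    have := joint hη h (n := 1) (A := fun _ => A) (fun _ => a) (fun _ => b)
      Subsingleton.pairwise (fun _ => Complex.exp (t * Complex.I)) fun _ => ne t
    simp only [Fin.prod_univ_one] at this
    rw [← this, charFun_apply_real, integral_map (mR A a b).aemeasurable (by fun_prop)]
    congr with ω
    rw [← Complex.exp_nat_mul]
    congr 1
    push_cast
    ring
  refine ⟨fun ω r => ?_, fun ω z k => ?_, hm, fun A a b => ?_, fun n A a b d => ?_⟩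
  · refine ((hη.locFin ω r).prod finite_univ).subset ?_
    exact fun q k => ⟨⟨k.1.1, k.2.1⟩, mem_univ _⟩
  · exact Bool.noConfusion (k.1.2.symm.trans k.2.2)
  · apply (MeasurableEmbedding.natCast (α := ℝ)).map_injective
    rw [Measure.map_map (measurable_of_countable _) (hm A a b)]
    have := Measure.isProbabilityMeasure_map (μ := P) (mR A a b).aemeasurable
    refine Measure.ext_of_charFun (funext fun t => ?_)
    rw [charFun_map_cast_poissonMeasure]
    exact cf A a b t
  · have I : iIndepFun (fun i ω => ((marked (η ω) (col ω) ∩ A i).ncard : ℝ)) P := by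
      refine (iIndepFun_iff_charFun_pi fun i => (mR _ (a i) (b i)).aemeasurable).2 fun t => ?_
      simp_rw [fun i => cf _ (a i) (b i) (t i)]
      have mv : Measurable fun ω => WithLp.toLp 2 fun i =>
          ((marked (η ω) (col ω) ∩ A i).ncard : ℝ) :=
        (WithLp.measurable_toLp 2 _).comp (measurable_pi_lambda _ fun i => mR _ (a i) (b i))
      rw [← joint hη h a b d _ fun j => ne (t j), charFun_apply, integral_map
        mv.aemeasurable (Continuous.aestronglyMeasurable (by fun_prop))]
      congr with ω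
      simp_rw [← Complex.exp_nat_mul]
      rw [← Complex.exp_sum, PiLp.inner_apply]
      congr 1
      push_cast
      rw [Finset.sum_mul]
      refine Finset.sum_congr rfl fun j _ => ?_
      simp
      ring
    simpa [Function.comp_def] using I.comp (fun _ => Nat.floor) fun _ => Nat.measurable_floor

omit [IsProbabilityMeasure P] in
theorem meas_count {Y : ℕ → Ω → Pt} (mY : ∀ i, Measurable (Y i)) {A : Set Pt}
    (hA : MeasurableSet A) : Measurable fun ω => {i | Y i ω ∈ A}.ncard :=
  measurable_ncard.comp (measurable_set_iff.2 fun i => (mY i hA).mem)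

/-- The marking theorem. -/
theorem mark (hη : IsPoisson P η lam) (h : IsColouring P η col X) :
    ∃ col' : Ω → ℂ → Bool, (∀ᵐ ω ∂P, col' ω = col ω) ∧
      IsColouredPoisson P (fun ω => marked (η ω) (col' ω)) lam := by
  classical
  obtain ⟨N, s, mN, zN⟩ := exists_measurable_superset_of_null (ae_iff.1 h.list)
  have aN : ∀ᵐ ω ∂P, ω ∉ N := measure_eq_zero_iff_ae_notMem.1 zN
  let col' : Ω → ℂ → Bool := fun ω => if ω ∈ N then fun _ => true else col ω
  have ae : ∀ᵐ ω ∂P, col' ω = col ω := aN.mono fun ω k => if_neg k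
  have aX : ∀ i, (fun ω => col ω (X i ω)) =ᵐ[P] fun ω => col' ω (X i ω) := fun i =>
    ae.mono fun ω k => by simp only [k]
  have mC : ∀ i, Measurable fun ω => col' ω (X i ω) := fun i => by
    simp only [col', ite_apply]
    exact Measurable.ite mN measurable_const (h.measC i)
  refine ⟨col', ae, mark_of (X := X) hη ⟨h.measX, h.list, mC, fun i => ?_, h.iid.congr aX,
    h.indep.congr .rfl (ae.mono fun ω k => by simp only [k])⟩ fun A a b => ?_⟩
  · rw [← h.half i]
    exact measure_congr (ae.mono fun ω k => by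
      change (col' ω (X i ω) = true) = (col ω (X i ω) = true)
      rw [k])
  · have : (fun ω => (marked (η ω) (col' ω) ∩ A).ncard) = fun ω => if ω ∈ N then
        (η ω ∩ sec A true).ncard else {i | (X i ω, col ω (X i ω)) ∈ A}.ncard := by
      funext ω
      rw [ncard_marked]
      split_ifs with k
      · simp only [col', if_pos k]
        rfl
      · obtain ⟨i, r⟩ := not_not.1 (mt (@s ω) k)
        rw [← ncard_image_of_injective _ i, ← r]
        simp only [col', if_neg k]
        congr 1
        ext z
        constructor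
        · rintro ⟨⟨j, rfl⟩, k⟩
          exact ⟨j, k, rfl⟩
        · rintro ⟨j, k, rfl⟩
          exact ⟨⟨j, rfl⟩, k⟩
    rw [this]
    exact Measurable.ite mN (hη.meas _ (sec_meas a _) (sec_bdd b _))
      (meas_count (fun i => (h.measX i).prodMk (h.measC i)) a)

end Vale.Agent.P148M96
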