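import Mathlib

/-!
# P148: the winding number of the boundary of a conformal disc
-/

open Set Metric Complex
open scoped Real ComplexConjugate

namespace Vale.Agent.P148M96

theorem ex_log {A : Type*} [TopologicalSpace A] [SimplyConnectedSpace A]
    [LocallyPathConnectedSpace A] {f : A → ℂ} (hf : Continuous f) (h0 : ∀ a, f a ≠ 0) :
    ∃ L : A → ℂ, Continuous L ∧ ∀ a, exp (L a) = f a := by
  obtain ⟨a⟩ : Nonempty A := inferInstance
  obtain ⟨F, ⟨-, h⟩, -⟩ := isCoveringMap_exp.existsUnique_continuousMap_lifts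
    (⟨fun a => ⟨f a, h0 a⟩, hf.subtype_mk _⟩ : C(A, {z : ℂ // z ≠ 0})) a (log (f a))
    (Subtype.ext (exp_log (h0 a)))
  exact ⟨F, F.continuous, fun b => congrArg Subtype.val (congrFun h b)⟩

theorem cst {f : ℝ → ℂ} (hf : Continuous f) {c : ℂ} (h : ∀ t, exp (f t) = c) (a b : ℝ) :
    f a = f b :=
  isCoveringMap_exp.const_of_comp hf (fun a b => Subtype.ext ((h a).trans (h b).symm)) a b

theorem ang {τ : ℝ → ℝ} (hc : Continuous τ) (hi : InjOn τ (Ioo (-1) 3))
    (h1 : ∀ t ∈ Ioo (-1 : ℝ) 3, Real.cos (τ t) ≠ 1) (ha : τ (-1) = 0) (h3 : Real.cos (τ 3) = 1)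
    (h0 : Real.cos (τ 0) = -1) (h2 : Real.sin (τ 2) = -1) : τ 3 = 2 * π := by
  have pi := Real.pi_pos
  have up : ∀ a b y, a < b → τ a < y → y < τ b → ∃ t ∈ Ioo a b, τ t = y := fun a b y k i j =>
    intermediate_value_Ioo k.le hc.continuousOn ⟨i, j⟩
  have dn : ∀ a b y, a < b → τ b < y → y < τ a → ∃ t ∈ Ioo a b, τ t = y := fun a b y k i j =>
    intermediate_value_Ioo' k.le hc.continuousOn ⟨i, j⟩
  have bd : ∀ t, -1 < t → t ≤ 3 → -(2 * π) ≤ τ t ∧ τ t ≤ 2 * π := fun t i j => by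
    constructor <;> by_contra! k
    · obtain ⟨u, hu, e⟩ := dn (-1) t _ i k (by linarith)
      exact h1 u ⟨hu.1, hu.2.trans_le j⟩ (by rw [e, Real.cos_neg, Real.cos_two_pi])
    · obtain ⟨u, hu, e⟩ := up (-1) t _ i (by linarith) k
      exact h1 u ⟨hu.1, hu.2.trans_le j⟩ (by rw [e, Real.cos_two_pi])
  have two : ∀ u ∈ Ioo (-1 : ℝ) 0, ∀ v, 0 < v → v < 3 → τ u ≠ τ v := fun u hu v i j e => by
    have := hi ⟨hu.1, by linarith [hu.2]⟩ ⟨by linarith, j⟩ e
    linarith [hu.2]
  obtain ⟨a0, b0⟩ := bd 0 (by norm_num) (by norm_num)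
  obtain ⟨a2, b2⟩ := bd 2 (by norm_num) (by norm_num)
  obtain ⟨a3, b3⟩ := bd 3 (by norm_num) (by norm_num)
  rcases le_total 0 (τ 0) with k | k
  · have e : τ 0 - π = 0 := (Real.cos_eq_one_iff_of_lt_of_lt (by linarith) (by linarith)).1
      (by rw [Real.cos_sub_pi, h0, neg_neg])
    have g : π ≤ τ 3 := by
      by_contra! j
      have m1 := le_max_left (τ 3) 0
      have m2 := le_max_right (τ 3) 0
      have m3 := max_lt j pi
      obtain ⟨u, hu, e1⟩ := up (-1) 0 ((max (τ 3) 0 + π) / 2) (by norm_num) (by linarith)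
        (by linarith)
      obtain ⟨v, hv, e2⟩ := dn 0 3 ((max (τ 3) 0 + π) / 2) (by norm_num) (by linarith)
        (by linarith)
      exact two u hu v hv.1 hv.2 (e1.trans e2.symm)
    have := (Real.cos_eq_one_iff_of_lt_of_lt (x := τ 3 - 2 * π) (by linarith) (by linarith)).1
      (by rw [Real.cos_sub_two_pi, h3])
    linarith
  · have e : τ 0 + π = 0 := (Real.cos_eq_one_iff_of_lt_of_lt (by linarith) (by linarith)).1
      (by rw [Real.cos_add_pi, h0, neg_neg])
    have g : τ 2 ≤ -π := by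
      by_contra! j
      have m1 := min_le_left (τ 2) 0
      have m2 := min_le_right (τ 2) 0
      have m3 : -π < min (τ 2) 0 := lt_min j (by linarith)
      obtain ⟨u, hu, e1⟩ := dn (-1) 0 ((min (τ 2) 0 - π) / 2) (by norm_num) (by linarith)
        (by linarith)
      obtain ⟨v, hv, e2⟩ := up 0 2 ((min (τ 2) 0 - π) / 2) (by norm_num) (by linarith)
        (by linarith)
      exact two u hu v hv.1 (by linarith [hv.2]) (e1.trans e2.symm)
    have := Real.sin_nonneg_of_nonneg_of_le_pi (x := τ 2 + 2 * π) (by linarith) (by linarith)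
    rw [Real.sin_add_two_pi, h2] at this
    linarith

theorem wind {Φ : ℂ → ℂ} (hc : ContinuousOn Φ (closedBall 0 1)) (hi : InjOn Φ (closedBall 0 1))
    {w : ℂ} (hw : ‖w‖ < 1) (h0 : deriv Φ w ≠ 0) {s : ℝ → ℂ} (sc : Continuous s)
    (sn : ∀ t, ‖s t‖ = 1) (si : InjOn s (Ico (-1) 3)) (s1 : s (-1) = 1) (s3 : s 3 = 1)
    (s0 : s 0 = -1) (s2 : s 2 = -I) {L : ℝ → ℂ} (Lc : Continuous L)
    (hL : ∀ t, exp (L t) = Φ (s t) - Φ w) : L 3 - L (-1) = 2 * π * I := by
  have wc : w ∈ closedBall (0 : ℂ) 1 := mem_closedBall_zero_iff.2 hw.le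
  let G : ℂ → ℂ := fun z => dslope Φ w z * (1 - w * conj z)
  have Gc : ContinuousOn G (closedBall 0 1) :=
    ((continuousOn_dslope (closedBall_mem_nhds_of_mem (mem_ball_zero_iff.2 hw))).2
      ⟨hc, differentiableAt_of_deriv_ne_zero h0⟩).mul (by fun_prop)
  have G0 : ∀ z ∈ closedBall (0 : ℂ) 1, G z ≠ 0 := fun z hz => by
    refine mul_ne_zero ?_ fun k => ?_
    · by_cases e : z = w
      · rwa [e, dslope_same]
      · rw [dslope_of_ne _ e, slope_def_field]
        exact div_ne_zero (sub_ne_zero.2 fun k => e (hi hz wc k)) (sub_ne_zero.2 e)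
    · have := congrArg norm (sub_eq_zero.1 k)
      rw [norm_one, norm_mul, RCLike.norm_conj] at this
      nlinarith [mem_closedBall_zero_iff.1 hz, norm_nonneg w, norm_nonneg z]
  have Gs : ∀ t, s t * G (s t) = Φ (s t) - Φ w := fun t => by
    have e : s t * conj (s t) = 1 := by rw [mul_conj, normSq_eq_norm_sq, sn]; simp
    rw [← sub_smul_dslope, smul_eq_mul]
    simp only [G]
    linear_combination (-w * dslope Φ w (s t)) * e
  let p : ℝ × ℝ → ℂ := fun q => ((projIcc 0 1 zero_le_one q.2 : ℝ) : ℂ) * s q.1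
  have pm : ∀ q, p q ∈ closedBall (0 : ℂ) 1 := fun q => by
    have := (projIcc (0 : ℝ) 1 zero_le_one q.2).2
    simpa [p, sn, abs_of_nonneg this.1] using this.2
  have pc : Continuous p := by
    have := continuous_projIcc (a := (0 : ℝ)) (b := 1) (h := zero_le_one)
    fun_prop
  obtain ⟨l, lc, hl⟩ := ex_log (f := fun q => G (p q)) (Gc.comp_continuous pc pm)
    fun q => G0 _ (pm q)
  have e1 : l (3, 1) - l (-1, 1) = l (3, 0) - l (-1, 0) :=
    cst (f := fun r => l (3, r) - l (-1, r)) (by fun_prop) (c := 1) (fun r => by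
      rw [exp_sub, hl, hl, div_eq_one_iff_eq (G0 _ (pm _))]
      simp only [p, s1, s3]) 1 0
  have e2 : l (3, 0) = l (-1, 0) := cst (f := fun t => l (t, 0)) (by fun_prop) (c := G 0)
    (fun t => by simp [hl, p]) 3 (-1)
  let σ : ℝ → ℂ := fun t => L t - l (t, 1) - (L (-1) - l (-1, 1))
  have a : ∀ t, exp (L t - l (t, 1)) = s t := fun t => by
    have k := G0 _ (mem_closedBall_zero_iff.2 (sn t).le)
    rw [exp_sub, hL, hl, ← Gs]
    simp [p, k]
  have hσ : ∀ t, exp (σ t) = s t := fun t => by rw [exp_sub, a, a, s1, div_one]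
  have re : ∀ t, (σ t).re = 0 := fun t => by
    have := congrArg norm (hσ t)
    rwa [norm_exp, sn, Real.exp_eq_one_iff] at this
  have co : ∀ t, Real.cos (σ t).im = (s t).re := fun t => by rw [← hσ, exp_re, re]; simp
  have si' : ∀ t, Real.sin (σ t).im = (s t).im := fun t => by rw [← hσ, exp_im, re]; simp
  have k := ang (τ := fun t => (σ t).im) (by fun_prop)
    (fun t ht u hu e => si (Ioo_subset_Ico_self ht) (Ioo_subset_Ico_self hu)
      (Complex.ext (by rw [← co, ← co]; exact congrArg _ e)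
        (by rw [← si', ← si']; exact congrArg _ e)))
    (fun t ht e => by
      have j := Real.sin_sq_add_cos_sq (σ t).im
      have : s t = s (-1) := Complex.ext (by rw [← co, e, s1, one_re]) (by
        rw [← si', s1, one_im]
        nlinarith)
      exact ht.1.ne' (si (Ioo_subset_Ico_self ht) ⟨le_rfl, by norm_num⟩ this))
    (by simp [σ]) (by simp [co, s3]) (by simp [co, s0]) (by simp [si', s2])
  have : σ 3 = 2 * π * I := Complex.ext (by simp [re]) (by simpa using k)
  simp only [σ] at this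
  linear_combination this + e1 + e2

end Vale.Agent.P148M96
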