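import Vale.Agent.P148M96.Ccw
import Vale.Agent.P148M96.Wind
import Vale.Agent.P148.R2.H771.JFinal
import Vale.Agent.P148.R2.H219.Arcs

/-!
# P148: a quad has a uniformizer if and only if it is counterclockwise
-/

open Set Metric Complex Topology
open scoped Real

namespace Vale.Agent.P148M96

open _root_.P148 Vale.Agent.P148.R2 Vale.Agent.P153.R2.R1

theorem wind_of {Q : JQuad} {φ : ℂ → ℂ} {x : ℝ} (h : Q.IsUniformizer φ x) {z : ℂ} (hz : z ∈ Q.D)
    {L : ℝ → ℂ} (Lc : Continuous L) (hL : ∀ t : ℝ, exp (L t) = Q.γ t - z) :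
    L 3 - L (-1) = 2 * π * I := by
  obtain ⟨Q', e1, e2, -⟩ := H771.exists_quad Q
  obtain ⟨Φ, hC, hi, h1, hΦ⟩ := H219.exists_param ((H771.unif_iff e1 e2 φ x).1 h)
  rw [e1] at hC
  rw [e2] at h1
  obtain ⟨w, hw, rfl⟩ := hC.img.symm.subset hz
  have ex : ∀ t : ℝ, ∃ u : sphere (0 : ℂ) 1, Φ u = Q.γ t := fun t => by
    obtain ⟨u, hu, e⟩ := (hC.frontier_eq.trans Q.bdry).symm.subset ⟨(t : AddCircle (4 : ℝ)), rfl⟩
    exact ⟨⟨u, hu⟩, e⟩
  choose s hs using ex
  have sb := fun t => sphere_subset_closedBall (s t).2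
  have emb : IsClosedEmbedding fun u : sphere (0 : ℂ) 1 => Φ u :=
    (hC.cont.mono sphere_subset_closedBall).domRestrict.isClosedEmbedding fun u v k =>
      Subtype.ext (hi (sphere_subset_closedBall u.2) (sphere_subset_closedBall v.2) k)
  have sc : Continuous s := emb.isInducing.continuous_iff.2 (by
    rw [show (fun u : sphere (0 : ℂ) 1 => Φ u) ∘ s = fun t : ℝ => Q.γ t from funext hs]
    exact Q.cont.comp (AddCircle.continuous_mk' 4))
  have : Fact ((0 : ℝ) < 4) := ⟨by norm_num⟩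
  have si : InjOn (fun t => (s t : ℂ)) (Ico (-1) 3) := fun t ht u hu k =>
    (AddCircle.coe_eq_coe_iff_of_mem_Ico (p := 4) (a := -1) (by norm_num; exact ht)
      (by norm_num; exact hu)).1 (Q.inj (by rw [← hs, ← hs]; exact congrArg Φ k))
  have s3 : (s 3 : ℂ) = 1 := hi (sb _) (by simp) (by rw [hs, h1]; simp [JQuad.mark])
  have s1 : (s (-1) : ℂ) = 1 := by
    rw [← s3]
    refine hi (sb _) (sb _) ?_
    rw [hs, hs, ← AddCircle.coe_add_period 4 (-1)]
    norm_num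
  have val : ∀ t ∈ Ioo (-1 : ℝ) 3, (s t : ℂ) = mb 1 I (φ (Q.γ t)) := fun t ht => by
    have n : (s t : ℂ) ≠ 1 := fun k =>
      ht.1.ne' (si (Ioo_subset_Ico_self ht) ⟨le_rfl, by norm_num⟩ (k.trans s1.symm))
    rw [← hs, hΦ _ (sb t) n, (mb_imb norm_one H219.I_im_pos n).2]
  refine wind hC.cont hi (mem_ball_zero_iff.1 hw)
    (Half.injOn_deriv_ne_zero isOpen_ball hC.diff hC.inj hw) (continuous_subtype_val.comp sc)
    (fun t => mem_sphere_zero_iff_norm.1 (s t).2) si s1 s3 ?_ ?_ Lc fun t => by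
      rw [hL, Function.comp, hs]
  · have a := h.at_a
    simp only [JQuad.mark, Fin.val_zero, Nat.cast_zero] at a
    rw [Function.comp, val 0 (by norm_num), a]
    simp [mb]
  · have a := h.at_c
    simp only [JQuad.mark, Fin.val_two, Nat.cast_ofNat] at a
    rw [Function.comp, val 2 (by norm_num), a, mb, one_mul, div_eq_iff (fun k => by
      simpa using congrArg re k)]
    simp [Complex.ext_iff]

theorem ccw_of {Q : JQuad} {φ : ℂ → ℂ} {x : ℝ} (h : Q.IsUniformizer φ x) : Ccw Q := by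
  intro z hz
  have n : ∀ t : ℝ, Q.γ t - z ≠ 0 := fun t k => by
    have : z ∈ frontier Q.D := Q.bdry.symm.subset ⟨_, sub_eq_zero.1 k⟩
    exact (Q.isOpen.frontier_eq.subset this).2 hz
  obtain ⟨L, Lc, hL⟩ := ex_log ((Q.cont.comp (AddCircle.continuous_mk' 4)).sub continuous_const) n
  have hL : ∀ t : ℝ, exp (L t) = Q.γ t - z := hL
  refine ⟨L, Lc, hL, ?_⟩
  have := cst (f := fun t => L (t + 4) - L t) (by fun_prop) (c := 1) (fun t => by
    rw [exp_sub, hL, hL, AddCircle.coe_add_period, div_self (n t)]) 0 (-1)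
  rw [← wind_of h hz Lc hL]
  norm_num at this
  exact this

theorem ccw_iff {Q : JQuad}
    (h : (∃ φ x, Q.IsUniformizer φ x) ∨ ∃ φ x, Q.rev.IsUniformizer φ x) :
    (Ccw Q ↔ ∃ φ x, Q.IsUniformizer φ x) ∧ (Ccw Q ∨ Ccw Q.rev) := by
  refine ⟨⟨fun c => h.resolve_right fun ⟨φ, x, u⟩ => ?_, fun ⟨_, _, u⟩ => ccw_of u⟩,
    h.imp (fun ⟨_, _, u⟩ => ccw_of u) fun ⟨_, _, u⟩ => ccw_of u⟩
  obtain ⟨z, hz⟩ := Q.isConnected.nonempty
  obtain ⟨L, Lc, hL, e⟩ := c z hz
  have := wind_of u (z := z) hz (L := fun t => L (3 - t)) (by fun_prop) fun t => by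
    rw [hL, AddCircle.coe_sub]
    rfl
  norm_num at this
  have k : (4 * π * I : ℂ) = 0 := by linear_combination -this - e
  simp at k

end Vale.Agent.P148M96
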