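import Vale.Agent.P148.Defs

/-!
# P148: Poisson points, coloured afterwards by independent fair coins
-/

open MeasureTheory Set Metric ProbabilityTheory
open scoped NNReal

namespace Vale.Agent.P148M96

/-- `η` is a homogeneous Poisson point process of intensity `lam` in the plane: a random locally
finite set such that the numbers of points in disjoint bounded Borel sets are independent Poisson
variables with means `lam` times the area. -/
structure IsPoisson {Ω : Type*} [MeasurableSpace Ω] (P : Measure Ω) (η : Ω → Set ℂ)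
    (lam : ℝ≥0) : Prop where
  locFin : ∀ ω, ∀ r : ℝ, (η ω ∩ ball 0 r).Finite
  meas : ∀ A : Set ℂ, MeasurableSet A → Bornology.IsBounded A →
    Measurable fun ω => (η ω ∩ A).ncard
  law : ∀ A : Set ℂ, MeasurableSet A → Bornology.IsBounded A →
    P.map (fun ω => (η ω ∩ A).ncard) = poissonMeasure (lam * (volume A).toNNReal)
  indep : ∀ (n : ℕ) (A : Fin n → Set ℂ), (∀ i, MeasurableSet (A i)) →
    (∀ i, Bornology.IsBounded (A i)) → Pairwise (fun i j => Disjoint (A i) (A j)) →
    iIndepFun (fun i ω => (η ω ∩ A i).ncard) P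

/-- `col ω v` is the colour (`true` is black) of the cell of `v`. The random points `X 0, X 1, …`
list `η` almost surely, and their colours are independent fair coins, independent of the points. -/
structure IsColouring {Ω : Type*} [MeasurableSpace Ω] (P : Measure Ω) (η : Ω → Set ℂ)
    (col : Ω → ℂ → Bool) (X : ℕ → Ω → ℂ) : Prop where
  measX : ∀ i, Measurable (X i)
  list : ∀ᵐ ω ∂P, (Function.Injective fun i => X i ω) ∧ (range fun i => X i ω) = η ω
  measC : ∀ i, Measurable fun ω => col ω (X i ω)
  half : ∀ i, P {ω | col ω (X i ω) = true} = 1 / 2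
  iid : iIndepFun (fun i ω => col ω (X i ω)) P
  indep : IndepFun (fun ω i => X i ω) (fun ω i => col ω (X i ω)) P

/-- The closed Voronoi cell of `v`. -/
def vor (η : Set ℂ) (v : ℂ) : Set ℂ := {z | ∀ w ∈ η, ‖z - v‖ ≤ ‖z - w‖}

/-- The union of the closed black cells. -/
def black (η : Set ℂ) (col : ℂ → Bool) : Set ℂ := ⋃ v ∈ {v ∈ η | col v = true}, vor η v

/-- The σ-algebra generated by the point process. -/
@[reducible] def sigmaOf {Ω : Type*} (η : Ω → Set ℂ) : MeasurableSpace Ω :=
  MeasurableSpace.generateFrom {s | ∃ A : Set ℂ, MeasurableSet A ∧ Bornology.IsBounded A ∧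
    ∃ n : ℕ, s = {ω | (η ω ∩ A).ncard = n}}

/-- The points with their colours. -/
def marked (η : Set ℂ) (col : ℂ → Bool) : Set P148.Pt := {q | q.1 ∈ η ∧ col q.1 = q.2}

end Vale.Agent.P148M96
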